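import Vale.Agent.P144DT.Par

/-!
The assembly of the blocks.
-/

namespace Vale.Agent.P144DT

open Filter Topology MeasureTheory Vale.Agent.P144 Vale.Agent.P144Z U2D AN Vale.Agent.P144F
open Vale.Agent.P144DD

theorem udiff_of {D : Set ℂ} {E₀ E : Fam} {Zσ Zε : ℝ} (h : UDP D E₀ E Zσ Zε) :
    UDiff D E₀ E Zσ Zε := by
  intro n m s hs ε hε
  obtain ⟨θ, hθ, h⟩ := h n m s hs
  have t : ∀ᶠ a in 𝓝[>] (0 : ℝ), a ^ θ ≤ s := by
    have : Tendsto (fun a : ℝ => a ^ θ) (𝓝 0) (𝓝 ((0 : ℝ) ^ θ)) :=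
      (Real.continuousAt_rpow_const 0 θ (Or.inr hθ.le)).tendsto
    rw [Real.zero_rpow hθ.ne'] at this
    exact nhdsWithin_le_nhds (this.eventually (ge_mem_nhds hs))
  filter_upwards [h ε hε, t] with a h1 h2 p hn hm hp
  exact h1 p hn hm hp.1 fun i i' hi => h2.trans (hp.2 i i' hi)

theorem exists_ins {D K : Set ℂ} (ho : IsOpen D) (hK : K ⊆ D) (hc : IsCompact K) :
    ∃ s > (0 : ℝ), ∀ z ∈ K, ‖z‖ ≤ s⁻¹ ∧ Metric.ball z s ⊆ D := by
  obtain ⟨δ, hδ, h⟩ := hc.exists_thickening_subset_open ho hK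
  obtain ⟨T, T0, hT⟩ := hc.isBounded.exists_pos_norm_le
  refine ⟨min δ T⁻¹, by positivity, fun z hz => ⟨(hT z hz).trans ?_,
    ((Metric.ball_subset_ball (min_le_left _ _)).trans
      (Metric.ball_subset_thickening hz δ)).trans h⟩⟩
  rw [le_inv_comm₀ T0 (by positivity)]
  exact min_le_right _ _

theorem zb_of {D : Set ℂ} {E : Fam} {μ : ℝ → Measure Config} (ho : IsOpen D) (h : ZBM D E)
    (r : P144F.Rep E μ) : ∀ K ⊆ D, IsCompact K → ZB μ K := by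
  intro K hK hc q k _ hk
  obtain ⟨s₀, s0, hs⟩ := exists_ins ho hK hc
  obtain ⟨A, L₀, ρ, ρ0, h⟩ := h (2 * q) 0 k (Or.inr rfl) (even_two_mul q) hk s₀ s0
  refine ⟨A, L₀, ρ, ρ0, ?_⟩
  filter_upwards [h, self_mem_nhdsWithin] with a ha a0 s s1 s2 x x1 x2 x3
  have := ha s s1 s2 (spins x) rfl rfl ?_ ?_ ?_
  · rwa [P144F.corr_eq (r a a0), pow_zero, mul_one] at this
  · rintro (i | i)
    exacts [hs _ (x1 i), i.elim0]
  · rintro (i | i) (j | j)
    exacts [x2 i j, j.elim0, i.elim0, i.elim0]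
  · rintro (i | i) (j | j) hij
    exacts [x3 i j fun e => hij (congrArg _ e), j.elim0, i.elim0, i.elim0]

theorem distLim_of {D : Set ℂ} {E₀ E : Fam} {Zσ Zε : ℝ} {C : Pts → ℝ}
    (h1 : DistDiff D E₀ E Zσ Zε) (h2 : DistLim D E₀ 1 1 C) : DistLim D E Zσ Zε C := by
  intro n m j F hF
  obtain ⟨i, t⟩ := h2 n m j F hF
  refine ⟨i, ?_⟩
  simpa using (h1 n m j F hF).add (t.const_mul (Zσ ^ n * Zε ^ m))

theorem prob_plane {J : ℝ} {E : Fam} (h : PlaneFam J 0 (fun _ => 0) (Kc / J) E) : Prob E := by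
  obtain ⟨μ, r, s⟩ := rep_plane h
  exact ⟨μ, fun a => (s a).1, r⟩

theorem prob_dom (J lam : ℝ) (V : Finset Site → ℝ) (β : ℝ) (D : Set ℂ)
    (b : Option (ℝ → Config)) : Prob (inDom J lam V β D b) := by
  obtain ⟨μ, h1, h2⟩ := rep_dom J lam V β D b
  exact ⟨μ, h1, fun a _ => h2 a⟩

/-- The correlation functions, with the value one for no points. -/
noncomputable def one (C : Pts → ℝ) (p : Pts) : ℝ := if p.n + p.m = 0 then 1 else C p

theorem one_zero (C : Pts → ℝ) (p : Pts) (h : p.n + p.m = 0) : one C p = 1 := if_pos h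

theorem one_good {D : Set ℂ} {p : Pts} (C : Pts → ℝ) (h : Good D p) : one C p = C p :=
  if_neg (by have := h.1; omega)

theorem one_j {D : Set ℂ} {p : Pts} (C : Pts → ℝ) (h : Good D p) (j : Fin p.m → Fin 2) :
    one C { p with j := j } = C { p with j := j } :=
  one_good (D := D) (p := { p with j := j }) C h

theorem blkT : BlkT := by
  intro hA hP hB hM hH hI hZ J hJ
  obtain ⟨κ, -, -, h⟩ := Results.P144.AAAAAll.result
  obtain ⟨C, CD, ⟨E₁, hE⟩, hC, hD, -⟩ := h J hJ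
  obtain ⟨cD, cP⟩ := hM J hJ
  have hC' : ∀ p, Good Set.univ p → (∀ E₀, PlaneFam J 0 (fun _ => 0) (Kc / J) E₀ →
      Lim E₀ p (one C p)) ∧ (∀ j, one C { p with j := j } = one C p) ∧
      (p.m = 0 → Even p.n → 0 < one C p) := fun p hp => by
    simpa only [one_good C hp, one_j C hp] using hC p hp
  have hD' : ∀ D b, P144Y.Nice D b → ∀ p, Good D p → Lim (crit J D b) p (one (CD D b) p) ∧
      (∀ j, one (CD D b) { p with j := j } = one (CD D b) p) ∧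
      (p.m = 0 → (b = none ∧ Even p.n ∨ b = some fun _ _ => true) → 0 < one (CD D b) p) :=
    fun D b hN p hp => by simpa only [one_good (CD D b) hp, one_j (CD D b) hp] using hD D b hN p hp
  obtain ⟨ν, n1, n2, n3⟩ := plane_field (C := one C) hJ (one_zero C _ rfl)
    (fun p hp => (hC' p hp).1) hE
  have hν : ∀ D b, ∃ νD, P144Y.Nice D b → IsLaw D (one (CD D b)) νD ∧
      FieldLim D (crit J D b) 1 νD ∧ ∀ (E : Fam) (μ : ℝ → Measure Config) (Z Z' : ℝ),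
        (∀ a, IsProbabilityMeasure (μ a)) → P144F.Rep E μ → LocDiff D (crit J D b) E Z Z' →
          (∀ K ⊆ D, IsCompact K → ZB μ K) → FieldLim D E Z νD := fun D b => by
    by_cases hN : P144Y.Nice D b
    · have o : IsOpen D ∧ Bornology.IsBounded D :=
        hN.cases.elim (fun h => ⟨h.1.1, h.1.2.1⟩) fun h => ⟨h.1.1, h.1.2.1⟩
      exact (dom_field (b := b) (C := one (CD D b)) hJ o.1 o.2 (one_zero _ _ rfl)
        fun p hp => (hD' D b hN p hp).1).imp fun _ h _ => h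
    · exact ⟨fun _ _ => 0, fun h => absurd h hN⟩
  choose νD hν using hν
  have dP : ∀ E₀, PlaneFam J 0 (fun _ => 0) (Kc / J) E₀ → DistLim Set.univ E₀ 1 1 (one C) :=
    fun E₀ h => hI _ _ _ isOpen_univ (prob_plane h) (cP _ h) (one_zero C)
      fun p hp => (hC' p hp).1 _ h
  refine ⟨one C, fun D b => one (CD D b), ν, νD, ⟨E₁, hE⟩, hC',
    rp_plane hJ (one_zero C) hE fun p hp => ⟨(hC' p hp).1 _ hE, (hC' p hp).2.1⟩, n1,
    fun E₀ h => ⟨n2 E₀ h, dP E₀ h⟩, fun D b hN => ⟨hD' D b hN, (hν D b hN).1, (hν D b hN).2.1⟩,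
    fun K hK V hV => ?_⟩
  obtain ⟨εA, a0, hA⟩ := hA
  obtain ⟨εB, b0, hB⟩ := hB
  have e0 := lt_min a0 b0
  obtain ⟨lam₀, l0, β, Zσ, Zε, a1, a2, a3, a4, a5, a6, h⟩ := par_of (ev_and
    (ev_and (hA _ e0 (min_le_left _ _)) (hB _ e0 (min_le_right _ _)))
    (ev_and hP (ev_of (domG_of hK e0)))) hJ hV
  refine ⟨lam₀, l0, β, Zσ, Zε, a1, a2, a3, a4, a5, a6, fun lam hl => ?_⟩
  obtain ⟨h1, h2, h3, L, q, rfl, hr, e1, e2, ⟨⟨qA, qB⟩, qP, L2, qG⟩, μ, m1, m2⟩ := h lam hl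
  have hr' : UL.Rel J lam (β lam) q := ⟨hr.pot, hr.range, hr.mu, hr.x⟩
  rw [← e1, ← e2] at qA qP
  have u := qP J lam _ hJ hr μ m2
  have l := fun E₀ h => (udiff_of (u E₀ h)).loc isOpen_univ
  refine ⟨h1, h2, h3, ⟨μ, m1, m2, fun p hp => ident (l _ hE).diff p hp _ ((hC' p hp).1 _ hE), l,
    n3 μ _ _ m1.1 m1.2.1 (l _ hE), distLim_of (hH _ _ _ _ _ isOpen_univ (prob_plane hE)
      ⟨fun _ => μ, fun _ => m1.1, fun _ _ _ => rfl⟩ (u _ hE)
      (hZ μ _ _ _ m1.1 m1.2.1 (u _ hE) (cP _ hE)) (cP _ hE)) (dP _ hE)⟩, fun D b hK hb => ?_⟩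
  have ho : IsOpen D := Cls.isOpen hK
  have dG := qG D hK
  have u := qA J lam _ hJ hr' D b dG hb
  have z := qB J lam _ hJ hr' D b dG hb
  have mj := cD L _ D b L2 dG hb
  have l := (udiff_of u).loc ho
  have dd := hH _ _ _ _ _ ho (prob_dom J 0 _ _ D b) (prob_dom J lam _ _ D b) u z mj
  refine ⟨l, ident l.diff, dd, fun hN => ⟨fun p hp => ident l.diff p hp _ (hD' D b hN p hp).1, ?_,
    distLim_of dd (hI _ _ _ ho (prob_dom J 0 _ _ D b) mj (one_zero _)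
      fun p hp => (hD' D b hN p hp).1)⟩⟩
  obtain ⟨μ', p1, p2⟩ := prob_dom J lam q.V (β lam) D b
  exact (hν D b hN).2.2 _ μ' _ _ p1 p2 l (zb_of ho z p2)

end Vale.Agent.P144DT
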