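import Vale.Agent.P144DD.Top

/-!
The analytic critical curve, for any property that holds eventually.
-/

namespace Vale.Agent.P144DT

open Filter Topology Vale.Agent.P144 Vale.Agent.P144Z U2D Set AN Vale.Agent.P144DD

theorem ev_and {P Q : ℕ → Par → Prop} (hP : Ev P) (hQ : Ev Q) :
    Ev fun L q => P L q ∧ Q L q := by
  obtain ⟨L₁, h1⟩ := hP
  obtain ⟨L₂, h2⟩ := hQ
  refine ⟨L₁ + L₂, fun L hL => ?_⟩
  obtain ⟨η₁, a1, h1⟩ := h1 L (by omega)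
  obtain ⟨η₂, a2, h2⟩ := h2 L (by omega)
  refine ⟨min η₁ η₂, lt_min a1 a2, fun R => ?_⟩
  obtain ⟨δ₁, b1, h1⟩ := h1 R
  obtain ⟨δ₂, b2, h2⟩ := h2 R
  exact ⟨min δ₁ δ₂, lt_min b1 b2, fun q hR hq =>
    ⟨h1 q hR (hq.mono (min_le_left _ _) (min_le_left _ _)),
      h2 q hR (hq.mono (min_le_right _ _) (min_le_right _ _))⟩⟩

theorem ev_of {Q : ℕ → Prop} (h : ∃ L₀, ∀ L ≥ L₀, Q L) : Ev fun L _ => Q L := by
  obtain ⟨L₀, h⟩ := h
  exact ⟨L₀, fun L hL => ⟨1, one_pos, fun _ => ⟨1, one_pos, fun _ _ _ => h L hL⟩⟩⟩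

/-- The critical curve with its constants. -/
theorem par_of {P : ℕ → Par → Prop} (hP : Ev P) {J : ℝ} (hJ : 0 < J) {V : Finset Site → ℝ}
    (hV : IsPotential V) : ∃ lam₀ > 0, ∃ β Zσ Zε : ℝ → ℝ,
    AnalyticOnNhd ℝ β (Ioo (-lam₀) lam₀) ∧ AnalyticOnNhd ℝ Zσ (Ioo (-lam₀) lam₀) ∧
    AnalyticOnNhd ℝ Zε (Ioo (-lam₀) lam₀) ∧ β 0 = Kc / J ∧ Zσ 0 = 1 ∧ Zε 0 = 1 ∧
    ∀ lam : ℝ, |lam| < lam₀ → 0 < β lam ∧ 0 < Zσ lam ∧ 0 < Zε lam ∧
      ∃ (L : ℕ) (q : Par), q.V = V ∧ U4.Rel J lam (β lam) q ∧ Zσ lam = Real.exp (sg L q) ∧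
        Zε lam = ze L q ∧ P L q ∧
          ∃ μ, IsPlaneState J lam V (β lam) μ ∧ IsTorusState J lam V (β lam) μ := by
  obtain ⟨LP, hP⟩ := ev_and hP (ev_and stateStmt (boxStmt (bdStmt_of shrStmt) gapStmt))
  obtain ⟨LB, hB⟩ := ana
  obtain ⟨ε₁, hε₁, hG⟩ := genA_of_wt wtS
  obtain ⟨ζ, -, LG, hG⟩ := hG ε₁ hε₁ le_rfl 1 le_rfl
  obtain ⟨L, hL⟩ : ∃ L, LB + LP + LG ≤ L := ⟨_, le_rfl⟩
  obtain ⟨ηB, hηB, hB⟩ := hB L (by omega)
  obtain ⟨ηP, hηP, hP⟩ := hP L (by omega)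
  obtain ⟨kf, -, hG⟩ := hG L (by omega)
  obtain ⟨R, hR⟩ := U4.exists_R hV
  have z0 : ∀ ε > 0, |(qc L V R 0).x - P144Z.tc| ≤ ε ∧ |Real.exp (sg L (qc L V R 0)) - 1| ≤ ε ∧
      |ze L (qc L V R 0) - 1| ≤ ε := fun ε hε => by
    obtain ⟨η, hη, h⟩ := hG ε hε
    obtain ⟨δ, hδ, h⟩ := h R
    obtain ⟨κ₀, k0, h', -⟩ := hB (min ηB (min η ε)) (by positivity) (min_le_left _ _) V R hV hR δ hδ
    have hq := h' 0 (by simpa using k0)
    obtain ⟨-, h1, h2, -⟩ := h _ rfl (hq.mono ((min_le_right _ _).trans (min_le_left _ _)) le_rfl)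
    exact ⟨hq.x.trans ((min_le_right _ _).trans (min_le_right _ _)), h1.le, h2.le⟩
  have z1 : ∀ {a b : ℝ}, (∀ ε > 0, |a - b| ≤ ε) → a = b := fun h =>
    sub_eq_zero.1 (abs_nonpos_iff.1 (le_of_forall_pos_le_add fun ε hε => by simpa using h ε hε))
  obtain ⟨ηM, hηM, hG⟩ := hG (1 / 2) (by positivity)
  obtain ⟨δP, hδP, hP⟩ := hP R
  obtain ⟨δM, hδM, hG⟩ := hG R
  obtain ⟨κ₀, hκ₀, hB, a1, a2⟩ := hB (min ηB (min ηM ηP)) (by positivity)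
    (min_le_left _ _) V _ hV hR (min δM δP) (by positivity)
  replace hG := fun k hk => hG _ rfl ((hB k hk).mono
    ((min_le_right _ _).trans (min_le_left _ _)) (min_le_left _ _))
  replace hP := fun k hk => hP _ rfl ((hB k hk).mono
    ((min_le_right _ _).trans (min_le_right _ _)) (min_le_right _ _))
  obtain ⟨a2, a3⟩ := a2 fun k hk => (hG k hk).1
  have hk : ∀ lam : ℝ, |lam| < 2 * J * κ₀ → |lam / (2 * J)| < κ₀ := fun lam hlam => by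
    rw [abs_div, abs_of_pos (by positivity : 0 < 2 * J), div_lt_iff₀ (by positivity)]
    linarith
  have cp : ∀ {f : ℝ → ℝ}, AnalyticOnNhd ℝ f (Ioo (-κ₀) κ₀) →
      AnalyticOnNhd ℝ (fun lam => f (lam / (2 * J))) (Ioo (-(2 * J * κ₀)) (2 * J * κ₀)) :=
    fun hf => hf.comp (analyticOnNhd_id.div_const (c := 2 * J))
      fun lam h => abs_lt.1 (hk lam (abs_lt.2 h))
  refine ⟨2 * J * κ₀, by positivity, fun lam => -Real.log (qc L V R (lam / (2 * J))).x / (2 * J),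
    fun lam => Real.exp (sg L (qc L V R (lam / (2 * J)))),
    fun lam => ze L (qc L V R (lam / (2 * J))),
    cp (f := fun k => -Real.log (qc L V R k).x / (2 * J)) ((a1.log fun k h =>
      lt_of_lt_of_le (by norm_num) (hB k (abs_lt.2 h)).ok.x_lo).neg.div_const),
    cp a3.rexp, cp a2, ?_, ?_, ?_, fun lam hlam => ?_⟩
  · simp only [zero_div]
    rw [z1 fun ε hε => (z0 ε hε).1, U4.tc_eq, Real.log_exp]
    field_simp
  · simpa only [zero_div] using z1 fun ε hε => (z0 ε hε).2.1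
  · simpa only [zero_div] using z1 fun ε hε => (z0 ε hε).2.2
  have hq := hB _ (hk lam hlam)
  obtain ⟨-, -, z2, -⟩ := hG _ (hk lam hlam)
  obtain ⟨p1, p2, p3⟩ := hP _ (hk lam hlam)
  beta_reduce
  have hμ : (qc L V R (lam / (2 * J))).μ =
      lam / (2 * J) * -Real.log (qc L V R (lam / (2 * J))).x := rfl
  have hV' : (qc L V R (lam / (2 * J))).V = V := rfl
  have hR' : (qc L V R (lam / (2 * J))).R = R := rfl
  generalize qc L V R (lam / (2 * J)) = q at *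
  subst hV' hR'
  have hx0 : 0 < q.x := lt_of_lt_of_le (by norm_num) hq.ok.x_lo
  have hx1 : q.x < 1 := lt_of_le_of_lt hq.ok.x_hi (by norm_num)
  have hrel : U4.Rel J lam (-Real.log q.x / (2 * J)) q :=
    { pot := hV
      range := hR
      mu := by rw [hμ]; ring
      x := by
        rw [show -(2 * (-Real.log q.x / (2 * J)) * J) = Real.log q.x by field_simp,
          Real.exp_log hx0]
      st := p2 }
  obtain ⟨μ, hμ⟩ := U1.exists_state hV J lam _ hrel.spin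
  exact ⟨div_pos (neg_pos.2 (Real.log_neg hx0 hx1)) (by positivity), Real.exp_pos _,
    by linarith [abs_lt.1 z2], L, q, rfl, hrel, rfl, rfl, p1, μ, p3 J lam _ hrel μ hμ, hμ⟩

/-- The classes of domains of the final statement. -/
def Cls (K : ℝ) (D : Set ℂ) : Prop :=
  IsC1 D ∨ IsPC1 D ∨ IsPolygon D ∨ (IsOpen D ∧ Bornology.IsBounded D ∧ Convex ℝ D) ∨ IsLip K D

theorem tameW_of {D : Set ℂ}
    (h : IsC1 D ∨ IsPC1 D ∨ IsPolygon D ∨ IsOpen D ∧ Bornology.IsBounded D ∧ Convex ℝ D) :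
    ∃ α > 0, TameW α D := by
  rcases h with hD | hD | hD | ⟨o, bd, cv⟩
  · exact ⟨1, one_pos, TameW.of_tame ((tame_of_C1 hD).mono one_le_two)⟩
  · exact tameW_of_PC1 hD
  · exact tameW_of_PC1 hD.isPC1
  · exact (tame_of_convex o bd cv).imp fun _ h => ⟨h.1, TameW.of_tame h.2⟩

theorem Cls.cases {K : ℝ} {D : Set ℂ} (h : Cls K D) : (∃ α > 0, TameW α D) ∨ IsLip K D := by
  rcases h with h | h | h | h | h
  exacts [Or.inl (tameW_of (Or.inl h)), Or.inl (tameW_of (Or.inr (Or.inl h))),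
    Or.inl (tameW_of (Or.inr (Or.inr (Or.inl h)))), Or.inl (tameW_of (Or.inr (Or.inr (Or.inr h)))),
    Or.inr h]

theorem Cls.isOpen {K : ℝ} {D : Set ℂ} (h : Cls K D) : IsOpen D :=
  h.cases.elim (fun ⟨_, _, h⟩ => h.1) fun h => h.1

/-- The domains of the classes can be dug. -/
theorem domG_of {K : ℝ} (hK : K < 1) {ε : ℝ} (hε : 0 < ε) :
    ∃ L₀, ∀ L ≥ L₀, 2 ≤ L ∧ ∀ D, Cls K D → DomG L ε D := by
  obtain ⟨κL, hκL, g1⟩ := P144L.G.rawL K hK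
  obtain ⟨LF, hF⟩ := geoF (digU_of (chStmt_of shiftU) (smallW_of (smallU_of farU))
    (uniW_of farU connOr winAnd rghZ) rghZ) clsU hε
  obtain ⟨LL, hL⟩ := P144L.F.geo P144L.G.torL P144L.G.rghL P144L.G.deepL P144L.F.bdL hκL hε
  refine ⟨LF + LL + 2, fun L h => ⟨by omega, fun D hD => ?_⟩⟩
  rcases hD.cases with ⟨α, hα, hD⟩ | hD
  · obtain ⟨κ, hκ, N, k₀, hF⟩ := hF L (by omega) α hα
    obtain ⟨T, T0, h1⟩ := rawStmtU α D hD
    obtain ⟨ρ, ρ0, h1⟩ := h1 κ hκ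
    exact ⟨N, k₀, _, hF, T, T0, ρ, ρ0, h1⟩
  · obtain ⟨T, T0, ρ, ρ0, h1⟩ := g1 D hD
    exact ⟨0, 1, _, fun k hk => (hL L (by omega) k hk).1, T, T0, ρ, ρ0, h1⟩

end Vale.Agent.P144DT
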